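import Vale.Agent.P141.H505.SkelStack1
import Vale.Agent.P141.H677.FDb
import Vale.Agent.P141.H708.PNum
import Vale.Agent.P141.H747.CapG
import Vale.Agent.P141.H922.TieSum

/-!
# P141, line (A): masses on the affected squares of a shifted grid

* `pack_sum`, `win_sum` : masses of the windows of the affected squares, summed over `x₀`;
* `pt_sum` : the mass of a shifted density on the marked points, one `x₀`, one scale.
-/

namespace Vale.Agent.P141.H562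

open Finset Matrix
open Vale.Agent.P141.PL (Pt iv ix mem_iv ix_ix card_iv)
open Vale.Agent.P141.H922 (iv_iv)
open Vale.Agent.P141.H747 (sft)
open Vale.Agent.P141.H205 (CapS)
open Vale.Agent.P141.H103 (un PA GW)
open Vale.Agent.P141.H505.Sk1 (Ch NumA)
open Vale.Agent.P141.PL.H804 Vale.Agent.P141.PL.H588
open Vale.Agent.P075 (Ix val)

noncomputable section

open scoped Classical

/-! ### Masses of windows -/

theorem sum_ix {k K : ℕ} (hk : k ≤ K) (t : ℤ) (f : ℤ → ℤ → ℝ) :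
    ∑ x0 ∈ iv K t, f (ix k x0) x0 = ∑ i ∈ iv (K - k) t, ∑ x0 ∈ iv k i, f i x0 := by
  rw [← iv_iv hk]
  refine sum_congr rfl fun i _ => sum_congr rfl fun x0 hx => ?_
  rw [mem_iv.1 hx]

theorem pack_sum {K : ℕ} {t R S : ℤ} {Pr : ℕ → ℤ → ℤ → ℤ → Prop} {f : ℕ → ℤ → ℤ → ℤ → ℝ}
    {D P : ℝ} (hD : 0 ≤ D)
    (hP : ∀ x0, ∑ k ∈ range K, ∑ u ∈ iv (K - k) R, ∑ v ∈ iv (K - k) S,
      (if Pr k (ix k x0) u v then (4 : ℝ) ^ k else 0) ≤ P * 4 ^ K)
    (hf : ∀ k < K, ∀ i u v, ∑ x0 ∈ iv k i, f k x0 u v ≤ D * 8 ^ k) :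
    ∑ x0 ∈ iv K t, ∑ k ∈ range K, ∑ u ∈ iv (K - k) R, ∑ v ∈ iv (K - k) S,
      (if Pr k (ix k x0) u v then f k x0 u v else 0) ≤ D * P * 8 ^ K := by
  have h1 : ∑ x0 ∈ iv K t, ∑ k ∈ range K, ∑ u ∈ iv (K - k) R, ∑ v ∈ iv (K - k) S,
      (if Pr k (ix k x0) u v then f k x0 u v else 0) ≤
      D * ∑ x0 ∈ iv K t, ∑ k ∈ range K, ∑ u ∈ iv (K - k) R, ∑ v ∈ iv (K - k) S,
        (if Pr k (ix k x0) u v then (4 : ℝ) ^ k else 0) := by
    rw [sum_comm, mul_sum]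
    simp only [mul_sum]
    rw [sum_comm (s := iv K t)]
    refine sum_le_sum fun k hk => ?_
    have hk' : k < K := mem_range.1 hk
    rw [sum_ix hk'.le t (fun i x0 => ∑ u ∈ iv (K - k) R, ∑ v ∈ iv (K - k) S,
        (if Pr k i u v then f k x0 u v else 0)),
      sum_ix hk'.le t (fun i _ => ∑ u ∈ iv (K - k) R, ∑ v ∈ iv (K - k) S,
        D * (if Pr k i u v then (4 : ℝ) ^ k else 0))]
    refine sum_le_sum fun i _ => ?_
    rw [sum_comm, sum_comm (s := iv k i)]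
    refine sum_le_sum fun u _ => ?_
    rw [sum_comm, sum_comm (s := iv k i)]
    refine sum_le_sum fun v _ => ?_
    by_cases h : Pr k i u v
    · simp only [if_pos h]
      refine (hf k hk' i u v).trans (le_of_eq ?_)
      rw [sum_const, card_iv, nsmul_eq_mul]
      push_cast
      have e8 : (8 : ℝ) ^ k = 2 ^ k * 4 ^ k := by rw [← mul_pow]; norm_num
      rw [e8]
      ring
    · simp only [if_neg h, mul_zero, sum_const_zero, le_refl]
  refine h1.trans ?_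
  refine (mul_le_mul_of_nonneg_left (sum_le_sum fun x0 _ => hP x0) hD).trans (le_of_eq ?_)
  rw [sum_const, card_iv, nsmul_eq_mul]
  push_cast
  have e8 : (8 : ℝ) ^ K = 2 ^ K * 4 ^ K := by rw [← mul_pow]; norm_num
  rw [e8]
  ring

/-- mass of a square at one `x₀`, squares of the root only -/
def fm (K : ℕ) (R3 R2 : ℤ) (F : ℤ → ℤ → ℝ) (k : ℕ) (a b : ℤ) : ℝ :=
  if a ∈ iv (K - k) R3 ∧ b ∈ iv (K - k) R2 then ∑ z ∈ iv k a, ∑ y ∈ iv k b, F z y else 0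

theorem fm_nonneg (K : ℕ) (R3 R2 : ℤ) {F : ℤ → ℤ → ℝ} (hF : ∀ z y, 0 ≤ F z y) (k : ℕ) (a b : ℤ) :
    0 ≤ fm K R3 R2 F k a b := by
  unfold fm
  split_ifs
  · exact sum_nonneg fun _ _ => sum_nonneg fun _ _ => hF _ _
  · exact le_rfl

/-- the windows of the marked squares at one `x₀` -/
def Tw (K : ℕ) (R S R3 R2 : ℤ) (Pr : ℕ → ℤ → ℤ → ℤ → Prop) (Win : ℕ → ℤ → ℤ → ℤ → Finset (ℤ × ℤ))
    (F : ℕ → ℤ → ℤ → ℝ) (x0 : ℤ) : ℝ :=
  ∑ k ∈ range K, ∑ u ∈ iv (K - k) R, ∑ v ∈ iv (K - k) S,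
    (if Pr k (ix k x0) u v then ∑ p ∈ Win k (ix k x0) u v, fm K R3 R2 (F k) k p.1 p.2 else 0)

theorem Tw_nonneg (K : ℕ) (R S R3 R2 : ℤ) (Pr : ℕ → ℤ → ℤ → ℤ → Prop)
    (Win : ℕ → ℤ → ℤ → ℤ → Finset (ℤ × ℤ)) {F : ℕ → ℤ → ℤ → ℝ} (hF : ∀ k z y, 0 ≤ F k z y)
    (x0 : ℤ) : 0 ≤ Tw K R S R3 R2 Pr Win F x0 := by
  refine sum_nonneg fun k _ => sum_nonneg fun u _ => sum_nonneg fun v _ => ?_
  split_ifs
  · exact sum_nonneg fun p _ => fm_nonneg _ _ _ (hF k) _ _ _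
  · exact le_rfl

theorem win_sum {K : ℕ} {t R S R3 R2 : ℤ} {Pr : ℕ → ℤ → ℤ → ℤ → Prop}
    {Win : ℕ → ℤ → ℤ → ℤ → Finset (ℤ × ℤ)} {c : ℕ} (hW : ∀ k i u v, (Win k i u v).card ≤ c)
    {A : ℤ → ℕ → ℤ → ℤ → ℝ} {D P : ℝ} (hD : 0 ≤ D)
    (hP : ∀ x0, ∑ k ∈ range K, ∑ u ∈ iv (K - k) R, ∑ v ∈ iv (K - k) S,
      (if Pr k (ix k x0) u v then (4 : ℝ) ^ k else 0) ≤ P * 4 ^ K)
    (hm : ∀ k < K, ∀ i, ∀ a ∈ iv (K - k) R3, ∀ b ∈ iv (K - k) R2,
      ∑ x0 ∈ iv k i, ∑ z ∈ iv k a, ∑ y ∈ iv k b, A x0 k z y ≤ D * 8 ^ k) :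
    ∑ x0 ∈ iv K t, Tw K R S R3 R2 Pr Win (A x0) x0 ≤ c * D * P * 8 ^ K := by
  refine pack_sum (f := fun k x0 u v => ∑ p ∈ Win k (ix k x0) u v, fm K R3 R2 (A x0 k) k p.1 p.2)
    (by positivity) hP ?_
  intro k hk i u v
  have h0 : (0 : ℝ) ≤ D * 8 ^ k := by positivity
  have h1 : ∑ x0 ∈ iv k i, ∑ p ∈ Win k (ix k x0) u v, fm K R3 R2 (A x0 k) k p.1 p.2 =
      ∑ p ∈ Win k i u v, ∑ x0 ∈ iv k i, fm K R3 R2 (A x0 k) k p.1 p.2 := by
    rw [sum_comm]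
    refine sum_congr rfl fun x0 hx => ?_
    rw [mem_iv.1 hx]
  rw [h1]
  have h2 : ∀ p ∈ Win k i u v, ∑ x0 ∈ iv k i, fm K R3 R2 (A x0 k) k p.1 p.2 ≤ D * 8 ^ k := by
    intro p _
    unfold fm
    by_cases h : p.1 ∈ iv (K - k) R3 ∧ p.2 ∈ iv (K - k) R2
    · simp only [if_pos h]
      exact hm k hk i _ h.1 _ h.2
    · simp only [if_neg h, sum_const_zero]
      exact h0
  refine (sum_le_sum h2).trans ?_
  rw [sum_const, nsmul_eq_mul, mul_assoc]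
  exact mul_le_mul_of_nonneg_right (by exact_mod_cast hW k i u v) h0

/-! ### The shifted squares, one `x₀` -/

theorem shift1 {g : ℤ → ℝ} (hg : ∀ x, 0 ≤ g x) {X : Finset ℤ} (h0 : ∀ x, x ∉ X → g x = 0)
    (Z : Finset ℤ) (h : ℤ) : ∑ z ∈ Z, g (z + h) ≤ ∑ x ∈ X, g x := by
  have e1 : ∑ z ∈ Z, g (z + h) = ∑ x ∈ Z.image (fun z => z + h), g x := by
    rw [sum_image]
    intro a _ b _ hab
    simpa using hab
  rw [e1]
  have e2 : ∑ x ∈ Z.image (fun z => z + h), g x =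
      ∑ x ∈ (Z.image (fun z => z + h)).filter (fun x => x ∈ X), g x := by
    rw [sum_filter]
    refine sum_congr rfl fun x _ => ?_
    split_ifs with hx
    · rfl
    · exact h0 x hx
  rw [e2]
  refine sum_le_sum_of_subset_of_nonneg (fun x hx => (mem_filter.1 hx).2) fun x _ _ => hg x

/-- **The mass of a shifted density on the marked points, one `x₀`, one scale.** -/
theorem pt_sum {K k : ℕ} (hk : k ≤ K) {R S R3 R2 : ℤ} {Pr : ℤ → ℤ → Prop}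
    {Win : ℤ → ℤ → Finset (ℤ × ℤ)} {F : ℤ → ℤ → ℝ} (hF : ∀ z y, 0 ≤ F z y) (h3 h2 : ℤ)
    (Z Y : Finset ℤ) {cond : ℤ → ℤ → Prop}
    (hc : ∀ z y, cond z y → ix K (z + h3) = R3 → ix K (y + h2) = R2 →
      ∃ u ∈ iv (K - k) R, ∃ v ∈ iv (K - k) S, Pr u v ∧ (ix k (z + h3), ix k (y + h2)) ∈ Win u v) :
    ∑ z ∈ Z, ∑ y ∈ Y, (if cond z y then
      (if ix K (z + h3) = R3 ∧ ix K (y + h2) = R2 then F (z + h3) (y + h2) else 0) else 0) ≤
      ∑ u ∈ iv (K - k) R, ∑ v ∈ iv (K - k) S,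
        (if Pr u v then ∑ p ∈ Win u v, fm K R3 R2 F k p.1 p.2 else 0) := by
  set G : ℤ → ℤ → ℤ → ℤ → ℝ := fun u v z y =>
    if Pr u v ∧ (ix K z = R3 ∧ ix K y = R2) ∧ (ix k z, ix k y) ∈ Win u v then F z y else 0 with hG
  have hG0 : ∀ u v z y, 0 ≤ G u v z y := by
    intro u v z y
    simp only [hG]
    split_ifs
    · exact hF _ _
    · exact le_rfl
  have e1 : ∀ z y, (if cond z y then
      (if ix K (z + h3) = R3 ∧ ix K (y + h2) = R2 then F (z + h3) (y + h2) else 0) else 0) ≤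
      ∑ u ∈ iv (K - k) R, ∑ v ∈ iv (K - k) S, G u v (z + h3) (y + h2) := by
    intro z y
    have n0 : 0 ≤ ∑ u ∈ iv (K - k) R, ∑ v ∈ iv (K - k) S, G u v (z + h3) (y + h2) :=
      sum_nonneg fun u _ => sum_nonneg fun v _ => hG0 _ _ _ _
    by_cases h1 : cond z y
    · rw [if_pos h1]
      by_cases h4 : ix K (z + h3) = R3 ∧ ix K (y + h2) = R2
      · rw [if_pos h4]
        obtain ⟨u, hu, v, hv, hp, hw⟩ := hc z y h1 h4.1 h4.2
        have g1 : F (z + h3) (y + h2) = G u v (z + h3) (y + h2) := by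
          simp only [hG]
          rw [if_pos ⟨hp, h4, hw⟩]
        rw [g1]
        refine le_trans ?_ (single_le_sum (f := fun u => ∑ v ∈ iv (K - k) S,
          G u v (z + h3) (y + h2)) (fun u _ => sum_nonneg fun v _ => hG0 _ _ _ _) hu)
        exact single_le_sum (f := fun v => G u v (z + h3) (y + h2)) (fun v _ => hG0 _ _ _ _) hv
      · rw [if_neg h4]
        exact n0
    · rw [if_neg h1]
      exact n0
  refine (sum_le_sum fun z _ => sum_le_sum fun y _ => e1 z y).trans ?_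
  have e2 : ∑ z ∈ Z, ∑ y ∈ Y, ∑ u ∈ iv (K - k) R, ∑ v ∈ iv (K - k) S, G u v (z + h3) (y + h2) =
      ∑ u ∈ iv (K - k) R, ∑ v ∈ iv (K - k) S, ∑ z ∈ Z, ∑ y ∈ Y, G u v (z + h3) (y + h2) := by
    rw [sum_congr rfl fun z _ => sum_comm, sum_comm]
    refine sum_congr rfl fun u _ => ?_
    rw [sum_congr rfl fun z _ => sum_comm, sum_comm]
  rw [e2]
  refine sum_le_sum fun u _ => sum_le_sum fun v _ => ?_
  have e3 : ∑ z ∈ Z, ∑ y ∈ Y, G u v (z + h3) (y + h2) ≤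
      ∑ z ∈ iv K R3, ∑ y ∈ iv K R2, G u v z y := by
    have s1 : ∀ z, ∑ y ∈ Y, G u v z (y + h2) ≤ ∑ y ∈ iv K R2, G u v z y := fun z =>
      shift1 (fun y => hG0 u v z y) (fun y hy => by
        simp only [hG]
        rw [if_neg]
        rintro ⟨_, ⟨_, h⟩, _⟩
        exact hy (mem_iv.2 h)) Y h2
    refine (sum_le_sum fun z _ => s1 (z + h3)).trans ?_
    exact shift1 (g := fun z => ∑ y ∈ iv K R2, G u v z y)
      (fun z => sum_nonneg fun y _ => hG0 u v z y) (fun z hz => sum_eq_zero fun y _ => by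
        simp only [hG]
        rw [if_neg]
        rintro ⟨_, ⟨h, _⟩, _⟩
        exact hz (mem_iv.2 h)) Z h3
  refine e3.trans ?_
  by_cases hp : Pr u v
  · rw [if_pos hp]
    have e4 : ∑ z ∈ iv K R3, ∑ y ∈ iv K R2, G u v z y =
        ∑ a ∈ iv (K - k) R3, ∑ b ∈ iv (K - k) R2,
          (if (a, b) ∈ Win u v then ∑ z ∈ iv k a, ∑ y ∈ iv k b, F z y else 0) := by
      rw [← iv_iv hk]
      refine sum_congr rfl fun a ha => ?_
      have f1 : ∀ z ∈ iv k a, ∑ y ∈ iv K R2, G u v z y =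
          ∑ b ∈ iv (K - k) R2, ∑ y ∈ iv k b, G u v z y := fun z _ => by rw [← iv_iv hk]
      rw [sum_congr rfl f1, sum_comm]
      refine sum_congr rfl fun b hb => ?_
      have f2 : ∀ z ∈ iv k a, ∀ y ∈ iv k b, G u v z y = if (a, b) ∈ Win u v then F z y else 0 := by
        intro z hz y hy
        have z1 : ix K z = R3 := by
          rw [mem_iv] at ha hz
          rw [← ha, ← hz, ix_ix, Nat.add_sub_cancel' hk]
        have y1 : ix K y = R2 := by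
          rw [mem_iv] at hb hy
          rw [← hb, ← hy, ix_ix, Nat.add_sub_cancel' hk]
        simp only [hG]
        rw [mem_iv.1 hz, mem_iv.1 hy]
        by_cases h : (a, b) ∈ Win u v
        · rw [if_pos ⟨hp, ⟨z1, y1⟩, h⟩, if_pos h]
        · rw [if_neg (fun h' => h h'.2.2), if_neg h]
      rw [sum_congr rfl fun z hz => sum_congr rfl fun y hy => f2 z hz y hy]
      split_ifs
      · rfl
      · simp
    rw [e4]
    have e5 : ∑ p ∈ Win u v, fm K R3 R2 F k p.1 p.2 =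
        ∑ p ∈ (Win u v).filter (fun p => p.1 ∈ iv (K - k) R3 ∧ p.2 ∈ iv (K - k) R2),
          ∑ z ∈ iv k p.1, ∑ y ∈ iv k p.2, F z y := by
      rw [sum_filter]
      rfl
    rw [e5, ← sum_product']
    rw [← sum_filter]
    refine le_of_eq (sum_congr ?_ fun _ _ => rfl)
    ext p
    simp only [mem_filter, mem_product]
    tauto
  · rw [if_neg hp]
    refine le_of_eq (sum_eq_zero fun z _ => sum_eq_zero fun y _ => ?_)
    simp only [hG]
    rw [if_neg fun h => hp h.1]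

end

end Vale.Agent.P141.H562
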